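import Mathlib
import Vale.Agent.Lib.P243.R3.Defs
import Vale.Agent.Lib.P243.R3.Defs4
open Set

namespace Vale.Agent.Lib.P243.R3

/-- Core of the midpoint argument: if `[a1, x]` lies in the boundary, and `[a2, x']` lies in the
boundary for the midpoint `x'` of `[a1, x]`, and `x` is not on the line through `a1` and `a2`,
then `x` lies on a facet plane. -/
lemma M4d_core {K : Set E3} (hK : Body K)
    (hsup : ∀ a b : E3, segment ℝ a b ⊆ frontier K →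
      ∃ f : E3 →L[ℝ] ℝ, f ≠ 0 ∧ (∀ k ∈ K, f k ≤ f a) ∧ f b = f a)
    {a1 a2 x : E3} (ha1 : a1 ∈ K) (ha2 : a2 ∈ K) (hne : a1 ≠ a2) (hx : x ∈ frontier K)
    (hseg2 : segment ℝ a2 (midpoint ℝ a1 x) ⊆ frontier K)
    (hline : ∀ t : ℝ, x ≠ a1 + t • (a2 - a1)) :
    ∃ (f : E3 →L[ℝ] ℝ) (M : ℝ), Facet K f M ∧ f x = M := by
  have hxK : x ∈ K := hK.compact.isClosed.frontier_subset hx
  have hseg2' : segment ℝ (midpoint ℝ a1 x) a2 ⊆ frontier K := by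
    rw [segment_symm]; exact hseg2
  obtain ⟨f, hf0, hfK, hfa2⟩ := hsup (midpoint ℝ a1 x) a2 hseg2'
  have hmid : f (midpoint ℝ a1 x) = (f a1 + f x) / 2 := by
    rw [midpoint_eq_smul_add, map_smul, map_add, smul_eq_mul, invOf_eq_inv]
    ring
  have h1 : f a1 ≤ f (midpoint ℝ a1 x) := hfK a1 ha1
  have h2 : f x ≤ f (midpoint ℝ a1 x) := hfK x hxK
  have hfa1 : f a1 = f (midpoint ℝ a1 x) := by linarith
  have hfx : f x = f (midpoint ℝ a1 x) := by linarith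
  refine ⟨f, f (midpoint ℝ a1 x), ⟨hf0, hfK, a1, a2, x, ha1, ha2, hxK, hfa1, hfa2, hfx, ?_⟩, hfx⟩
  rw [LinearIndependent.pair_iff]
  intro s t hst
  by_cases ht : t = 0
  · subst ht
    rw [zero_smul, add_zero, smul_eq_zero] at hst
    rcases hst with hs | hs
    · exact ⟨hs, rfl⟩
    · exact absurd (sub_eq_zero.1 hs).symm hne
  · exfalso
    apply hline (-s / t)
    have h3 : t • (x - a1) = -(s • (a2 - a1)) := eq_neg_of_add_eq_zero_right hst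
    have h4 : x - a1 = (-s / t) • (a2 - a1) := by
      have h5 : x - a1 = t⁻¹ • (t • (x - a1)) := by
        rw [smul_smul, inv_mul_cancel₀ ht, one_smul]
      rw [h5, h3, ← neg_smul, smul_smul]
      congr 1
      field_simp
    rw [← h4]
    abel

/-- Key lemma: a boundary point off the four lines through one endpoint of each of two star
chords lies on a facet plane. -/
lemma M4d_key {K : Set E3} (hK : Body K)
    (hsup : ∀ a b : E3, segment ℝ a b ⊆ frontier K →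
      ∃ f : E3 →L[ℝ] ℝ, f ≠ 0 ∧ (∀ k ∈ K, f k ≤ f a) ∧ f b = f a)
    {p1 q1 p2 q2 : E3} (h1 : Star K p1 q1) (h2 : Star K p2 q2)
    (hd : p1 ≠ p2 ∧ p1 ≠ q2 ∧ q1 ≠ p2 ∧ q1 ≠ q2) {x : E3} (hx : x ∈ frontier K)
    (hline : ∀ i : Fin 4, ∀ t : ℝ, x ≠ (![p1, p1, q1, q1] : Fin 4 → E3) i
      + t • (![p2 - p1, q2 - p1, p2 - q1, q2 - q1] : Fin 4 → E3) i) :
    ∃ (f : E3 →L[ℝ] ℝ) (M : ℝ), Facet K f M ∧ f x = M := by
  obtain ⟨hp1, hq1, -, hs1⟩ := h1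
  obtain ⟨hp2, hq2, -, hs2⟩ := h2
  obtain ⟨hd1, hd2, hd3, hd4⟩ := hd
  have l0 : ∀ t : ℝ, x ≠ p1 + t • (p2 - p1) := fun t => by simpa using hline 0 t
  have l1 : ∀ t : ℝ, x ≠ p1 + t • (q2 - p1) := fun t => by simpa using hline 1 t
  have l2 : ∀ t : ℝ, x ≠ q1 + t • (p2 - q1) := fun t => by simpa using hline 2 t
  have l3 : ∀ t : ℝ, x ≠ q1 + t • (q2 - q1) := fun t => by simpa using hline 3 t
  rcases hs1 x hx with hA | hA
  · have hx' : midpoint ℝ p1 x ∈ frontier K := hA (midpoint_mem_segment p1 x)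
    rcases hs2 _ hx' with hB | hB
    · exact M4d_core hK hsup hp1 hp2 hd1 hx hB l0
    · exact M4d_core hK hsup hp1 hq2 hd2 hx hB l1
  · have hx' : midpoint ℝ q1 x ∈ frontier K := hA (midpoint_mem_segment q1 x)
    rcases hs2 _ hx' with hB | hB
    · exact M4d_core hK hsup hq1 hp2 hd3 hx hB l2
    · exact M4d_core hK hsup hq1 hq2 hd4 hx hB l3

/-- A nonzero continuous linear functional on `E3`. -/
lemma M4d_proj_ne_zero : (EuclideanSpace.proj (0 : Fin 3) : E3 →L[ℝ] ℝ) ≠ 0 := by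
  intro h
  have h1 : (EuclideanSpace.proj (0 : Fin 3) : E3 →L[ℝ] ℝ) (EuclideanSpace.single 0 1) = 0 := by
    rw [h]; rfl
  simp at h1

/-- Two star chords with four distinct endpoints force three facets in pairwise distinct
planes. -/
theorem M4d_three_facets {K : Set E3} (hK : Body K)
    (hsup : ∀ a b : E3, segment ℝ a b ⊆ frontier K →
      ∃ f : E3 →L[ℝ] ℝ, f ≠ 0 ∧ (∀ k ∈ K, f k ≤ f a) ∧ f b = f a)
    (hcov : ∀ f1 f2 : E3 →L[ℝ] ℝ, f1 ≠ 0 → f2 ≠ 0 → ∀ (M1 M2 : ℝ) (a d : Fin 4 → E3),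
      ∃ x ∈ frontier K, f1 x ≠ M1 ∧ f2 x ≠ M2 ∧ ∀ i, ∀ t : ℝ, x ≠ a i + t • d i)
    {p1 q1 p2 q2 : E3} (h1 : Star K p1 q1) (h2 : Star K p2 q2)
    (hd : p1 ≠ p2 ∧ p1 ≠ q2 ∧ q1 ≠ p2 ∧ q1 ≠ q2) :
    ∃ (f1 f2 f3 : E3 →L[ℝ] ℝ) (M1 M2 M3 : ℝ), Facet K f1 M1 ∧ Facet K f2 M2 ∧ Facet K f3 M3 ∧
      (∃ y, f2 y = M2 ∧ f1 y ≠ M1) ∧ (∃ y, f3 y = M3 ∧ f1 y ≠ M1 ∧ f2 y ≠ M2) := by
  obtain ⟨x1, hx1, -, -, hl1⟩ := hcov _ _ M4d_proj_ne_zero M4d_proj_ne_zero 0 0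
    ![p1, p1, q1, q1] ![p2 - p1, q2 - p1, p2 - q1, q2 - q1]
  obtain ⟨f1, M1, hF1, -⟩ := M4d_key hK hsup h1 h2 hd hx1 hl1
  obtain ⟨x2, hx2, h21, -, hl2⟩ := hcov f1 f1 hF1.1 hF1.1 M1 M1
    ![p1, p1, q1, q1] ![p2 - p1, q2 - p1, p2 - q1, q2 - q1]
  obtain ⟨f2, M2, hF2, hfx2⟩ := M4d_key hK hsup h1 h2 hd hx2 hl2
  obtain ⟨x3, hx3, h31, h32, hl3⟩ := hcov f1 f2 hF1.1 hF2.1 M1 M2
    ![p1, p1, q1, q1] ![p2 - p1, q2 - p1, p2 - q1, q2 - q1]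
  obtain ⟨f3, M3, hF3, hfx3⟩ := M4d_key hK hsup h1 h2 hd hx3 hl3
  exact ⟨f1, f2, f3, M1, M2, M3, hF1, hF2, hF3, ⟨x2, hfx2, h21⟩, ⟨x3, hfx3, h31, h32⟩⟩

end Vale.Agent.Lib.P243.R3
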